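import Mathlib
import Vale.Agent.Lib.P302.helper9.Th431.All
import Vale.Agent.Lib.P302.helper9.Th431.F5

/-!
# P302: a bin packing instance with `OPT - LP ≥ 6868027/5308416`

An explicit instance with 431 items (integer sizes `sizes`, bin capacity `cap`, every size strictly
between a quarter and a half of the capacity; the data are in
`Vale.Agent.Lib.P302.helper9.Th431.Base`) whose optimum is at least `145` bins while its
Gilmore-Gomory configuration LP has value at most `762852293/5308416`.  Hence
`OPT - LP ≥ 6868027/5308416`.

* `OPT ≥ 145`: a packing into `144` bins would contain `143` bins with three items each, so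
  the lightest `429` items would split into triples that fit; the verified mask search of
  `Vale.Agent.Lib.P302.helper8.Prio`, with dominated states left out
  (`Vale.Agent.Lib.P302.helper9.DomP`), refutes this.  Its 1313 states in 141 layers are stored
  as data and checked chunk by chunk (`stepOKDR`).
* `LP ≤ 762852293/5308416`: `frac` (in `Vale.Agent.Lib.P302.helper9.Th431.F0`) is an explicit fractional
  solution (weights are the listed numerators over `5308416`), checked by `fracOK` in pieces.
-/

namespace Vale.Agent.Results.P302.A_Gap6868027Over5308416

open Vale.Agent.Lib.P302.helper14 Vale.Agent.Lib.P302.helper8 Vale.Agent.Lib.P302.helper9 Vale.Agent.Lib.P302.helper9.Th431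

theorem frac_total : (frac.map Prod.snd).sum = 762852293 := by decide +kernel

theorem sizes_ok : ∀ k ∈ sizes, 0 < k ∧ k ≤ cap := by decide +kernel

/-- There is a bin packing instance `I` (a list of 431 rational sizes in `(0,1]`) with
`OPT(I) - LP(I) ≥ 6868027/5308416`, where `OPT` is the least number of bins and
`LP` the value of the Gilmore-Gomory configuration LP. -/
theorem result :
    ∃ I : List ℚ, IsInstance I ∧ I.length = 431 ∧
      (6868027 / 5308416 : ℝ) ≤ (OPT I : ℝ) - LP I := by
  have h := gap_of_cert_c sizes cap 144 5308416 rows m0 frac (by decide) (by decide)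
    sizes_ok prep_ok (head_no2 no0) frac_ok
  have hlen : (ratInst sizes cap).length = 431 := by
    rw [ratInst, List.length_map]
    decide +kernel
  refine ⟨ratInst sizes cap, h.1, hlen, ?_⟩
  have h2 := h.2
  rw [frac_total] at h2
  have e : (((144 : ℕ) : ℝ) + 1) - (((762852293 : ℕ) : ℝ)) / ((5308416 : ℕ) : ℝ)
      = 6868027 / 5308416 := by norm_num
  rw [e] at h2
  exact h2

end Vale.Agent.Results.P302.A_Gap6868027Over5308416
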