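import Mathlib
import Vale.Agent.Lib.P302.helper8.Th863.All
import Vale.Agent.Lib.P302.helper8.Th863.FA
import Vale.Agent.Lib.P302.helper4.Pad
import Vale.Agent.Lib.P302.helper4.Pack

/-!
# P302: a bin packing instance with `OPT - LP ≥ 83256497/63700992`

An explicit instance with 863 items (integer sizes `sizes`, bin capacity `cap`, every size strictly
between a quarter and a half of the capacity; the data are in
`Vale.Agent.Lib.P302.helper8.Th863.Base`) whose optimum is at least `289` bins while its
Gilmore-Gomory configuration LP has value at most `18326330191/63700992`.  Hence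
`OPT - LP ≥ 83256497/63700992`.

* `OPT ≥ 289`: a packing into `288` bins would contain `287` bins with three items each, so
  the lightest `861` items would split into triples that fit; the verified mask search of
  `Vale.Agent.Lib.P302.helper8.Prio`, with dominated states left out
  (`Vale.Agent.Lib.P302.helper9.DomP`), refutes this.  Its 4737 states in 285 layers are stored
  as data and checked chunk by chunk (`stepOKDR`).
* `OPT ≤ 289`: the explicit packing `assign` into 289 bins is checked by `packOK`; padding with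
  items of size `1` then gives every value of `OPT` from 289 on with the same gap.
* `LP ≤ 18326330191/63700992`: `frac` (in `Vale.Agent.Lib.P302.helper8.Th863.F0`) is an explicit fractional
  solution (weights are the listed numerators over `63700992`), checked by `fracOK` in pieces.
-/

namespace Vale.Agent.Results.P302.A_Gap83256497Over63700992

open Vale.Agent.Lib.P302.helper4 Vale.Agent.Lib.P302.helper14 Vale.Agent.Lib.P302.helper8 Vale.Agent.Lib.P302.helper9 Vale.Agent.Lib.P302.helper8.Th863

theorem frac_total : (frac.map Prod.snd).sum = 18326330191 := by decide +kernel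

theorem sizes_ok : ∀ k ∈ sizes, 0 < k ∧ k ≤ cap := by decide +kernel

/-- A packing of the 863 items into 289 bins: the bin (numbered from 0) of each item, in the order
of the list `sizes`. -/
def assign : List ℕ :=
  [286, 286, 287, 287, 288, 0, 1, 2, 3, 2, 4, 5, 6, 0, 1, 7, 7, 8, 9, 10,
   3, 4, 5, 6, 11, 11, 12, 12, 13, 13, 14, 14, 15, 15, 16, 16, 17, 8, 9, 10,
   18, 19, 20, 19, 21, 22, 20, 18, 23, 24, 23, 25, 26, 24, 21, 22, 25, 27, 28, 27,
   29, 30, 28, 29, 31, 32, 31, 33, 34, 32, 30, 26, 17, 33, 34, 35, 35, 36, 37, 36,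
   38, 39, 37, 38, 40, 41, 40, 42, 43, 41, 39, 42, 43, 44, 44, 45, 45, 46, 46, 47,
   47, 48, 48, 49, 49, 50, 50, 51, 51, 52, 52, 53, 53, 54, 54, 55, 55, 56, 56, 57,
   57, 58, 58, 59, 59, 60, 60, 61, 61, 62, 62, 63, 63, 64, 64, 65, 65, 66, 66, 67,
   67, 68, 68, 69, 69, 70, 70, 71, 71, 72, 73, 72, 74, 75, 73, 74, 76, 77, 76, 78,
   79, 77, 75, 78, 79, 80, 80, 81, 81, 82, 82, 83, 83, 84, 84, 85, 85, 86, 86, 87,
   87, 88, 88, 89, 89, 90, 90, 91, 91, 92, 92, 93, 93, 94, 94, 95, 95, 96, 96, 97,
   97, 98, 98, 99, 99, 100, 100, 101, 101, 102, 102, 103, 103, 104, 104, 105, 105, 106, 106, 107,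
   107, 108, 108, 109, 109, 110, 110, 111, 111, 112, 112, 113, 113, 114, 114, 115, 115, 116, 116, 117,
   117, 118, 118, 119, 119, 120, 120, 121, 121, 122, 122, 123, 123, 124, 124, 125, 125, 126, 126, 127,
   127, 128, 128, 129, 129, 130, 130, 131, 131, 132, 132, 133, 133, 134, 134, 135, 135, 136, 136, 137,
   137, 138, 138, 139, 139, 140, 140, 141, 141, 142, 142, 143, 143, 144, 144, 145, 145, 146, 146, 147,
   147, 148, 148, 149, 149, 150, 150, 151, 151, 152, 152, 153, 153, 154, 154, 155, 155, 156, 156, 157,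
   157, 158, 158, 159, 159, 160, 160, 161, 161, 162, 162, 163, 163, 164, 164, 165, 165, 166, 166, 167,
   167, 168, 168, 169, 169, 170, 170, 171, 171, 172, 172, 173, 173, 174, 174, 175, 175, 176, 176, 177,
   177, 178, 178, 179, 179, 180, 180, 181, 181, 182, 182, 183, 183, 184, 184, 185, 185, 186, 186, 187,
   187, 188, 188, 189, 189, 190, 190, 191, 191, 192, 192, 193, 193, 194, 194, 195, 195, 196, 196, 197,
   197, 198, 198, 199, 199, 200, 200, 201, 201, 202, 202, 203, 203, 204, 204, 205, 205, 206, 206, 207,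
   207, 208, 208, 209, 209, 210, 210, 211, 211, 212, 212, 213, 213, 214, 214, 215, 215, 216, 216, 217,
   217, 218, 218, 219, 219, 220, 220, 221, 221, 222, 222, 223, 223, 224, 224, 225, 225, 226, 226, 227,
   227, 228, 228, 229, 229, 230, 230, 231, 231, 232, 232, 233, 233, 234, 234, 235, 235, 236, 236, 237,
   237, 238, 238, 239, 239, 240, 240, 241, 241, 242, 242, 243, 243, 244, 244, 245, 245, 246, 246, 247,
   247, 248, 248, 249, 249, 250, 250, 251, 251, 252, 252, 253, 253, 254, 254, 255, 255, 256, 256, 257,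
   257, 258, 258, 259, 259, 260, 260, 261, 261, 262, 262, 263, 263, 264, 264, 265, 265, 266, 266, 267,
   267, 268, 268, 269, 269, 270, 270, 271, 271, 272, 272, 273, 273, 274, 274, 275, 275, 276, 276, 277,
   277, 278, 278, 279, 279, 280, 280, 281, 281, 282, 282, 281, 280, 279, 278, 282, 277, 276, 283, 274,
   275, 273, 283, 272, 271, 270, 269, 268, 283, 266, 267, 264, 265, 263, 262, 261, 260, 259, 284, 257,
   256, 258, 255, 254, 253, 252, 251, 284, 248, 249, 246, 247, 245, 244, 243, 242, 241, 250, 239, 238,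
   240, 237, 236, 235, 234, 233, 284, 231, 229, 230, 228, 227, 226, 225, 224, 232, 222, 221, 223, 220,
   219, 218, 217, 216, 285, 213, 214, 210, 211, 209, 208, 207, 206, 205, 212, 203, 202, 204, 201, 200,
   199, 198, 197, 215, 195, 193, 194, 192, 191, 190, 189, 188, 196, 186, 185, 187, 184, 183, 182, 181,
   180, 285, 177, 175, 176, 174, 173, 172, 171, 170, 178, 168, 167, 169, 166, 165, 164, 163, 162, 179,
   160, 158, 159, 157, 156, 155, 154, 153, 161, 151, 150, 152, 149, 148, 147, 146, 145, 285, 141, 142,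
   138, 139, 137, 136, 135, 134, 133, 140, 131, 130, 132, 129, 128, 127, 126, 125, 143, 123, 121, 122,
   120, 119, 118, 117, 116, 124, 114, 113, 115, 112, 111, 110, 109, 108, 144, 105, 103, 104, 102, 101,
   100, 99, 98, 106, 96, 95, 97, 94, 93, 92, 91, 90, 107, 88, 86, 87, 85, 84, 83, 82,
   81, 89, 80, 78, 79, 77, 76, 75, 74, 73, 72, 70, 67, 68, 66, 65, 64, 63, 62, 69,
   60, 59, 61, 58, 57, 56, 55, 54, 71, 52, 50, 51, 49, 48, 47, 46, 45, 53, 44, 42,
   43, 41, 40, 39, 38, 37, 36, 35, 33, 34, 32, 31, 30, 29, 28, 27, 26, 22, 25, 24,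
   23, 21, 18, 20, 19, 17, 9, 10, 15, 16, 14, 13, 12, 11, 8, 4, 5, 6, 7, 3,
   0, 1, 2]

theorem assign_ok : packOK sizes cap assign 289 = true := by decide +kernel

/-- The 863-item instance can be packed into 289 bins. -/
theorem packable_opt : Packable (ratInst sizes cap) 289 :=
  packable_of_packOK (by decide) assign_ok

/-- There is a bin packing instance `I` (a list of 863 rational sizes in `(0,1]`) with
`OPT(I) = 289` and `OPT(I) - LP(I) ≥ 83256497/63700992`, and for every `k ≥ 289` there is a bin
packing instance `J` with `OPT(J) = k` and `OPT(J) - LP(J) ≥ 83256497/63700992` (the instance `I`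
padded with items of size `1`); here `OPT` is the least number of bins and `LP` the value of the
Gilmore-Gomory configuration LP. -/
theorem result :
    (∃ I : List ℚ, IsInstance I ∧ I.length = 863 ∧ OPT I = 289 ∧
      (83256497 / 63700992 : ℝ) ≤ (OPT I : ℝ) - LP I) ∧
    ∀ k : ℕ, 289 ≤ k → ∃ J : List ℚ, IsInstance J ∧ OPT J = k ∧
      (83256497 / 63700992 : ℝ) ≤ (OPT J : ℝ) - LP J := by
  have h := gap_of_cert_c sizes cap 288 63700992 rows m0 frac (by decide) (by decide)
    sizes_ok prep_ok (head_no2 no0) frac_ok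
  have hlen : (ratInst sizes cap).length = 863 := by
    rw [ratInst, List.length_map]
    decide +kernel
  have h2 := h.2
  rw [frac_total] at h2
  have e : (((288 : ℕ) : ℝ) + 1) - (((18326330191 : ℕ) : ℝ)) / ((63700992 : ℕ) : ℝ)
      = 83256497 / 63700992 := by norm_num
  rw [e] at h2
  have hle : OPT (ratInst sizes cap) ≤ 289 :=
    Nat.sInf_le (s := {k | Packable (ratInst sizes cap) k}) packable_opt
  have hge : 288 + 1 ≤ OPT (ratInst sizes cap) :=
    opt_ge h.1 (fun hp => prepF_sound prep_ok (head_no2 no0)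
      (packableNat_of_packable (by decide) hp))
  refine ⟨⟨ratInst sizes cap, h.1, hlen, by omega, h2⟩, ?_⟩
  intro k hk
  exact gap_all_opt h.1 h2 k (le_trans hle hk)

end Vale.Agent.Results.P302.A_Gap83256497Over63700992
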