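import Mathlib
import Vale.Agent.Results.P302.A_Gap563561Over442368
import Vale.Agent.Results.P302.A_Gap6868027Over5308416
import Vale.Agent.Lib.P302.helper4.Pad
import Vale.Agent.Lib.P302.helper4.Pack

/-!
# P302: gaps `OPT - LP` above `6/5` for every value of `OPT` from 73 on

* For every `k ≥ 73` there is a bin packing instance `J` with `OPT(J) = k` and
  `OPT(J) - LP(J) ≥ 563561/442368 > 6/5`: the 215-item instance certified in
  `Vale.Agent.Results.P302.A_Gap563561Over442368` (its optimum is exactly 73: the explicit packing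
  `assign` into 73 bins is checked by `packOK`), padded with items of size `1` (each of them
  raises `OPT` by exactly one and `LP` by at most one).
* For every `k ≥ 145` there is an instance `J` with `OPT(J) = k` and
  `OPT(J) - LP(J) ≥ 6868027/5308416 > 563561/442368`: the 431-item instance certified in
  `Vale.Agent.Results.P302.A_Gap6868027Over5308416` (its optimum is exactly 145: the explicit
  packing `assignL` into 145 bins is checked by `packOK`), padded in the same way.
-/

namespace Vale.Agent.Results.P302.B_GapForEveryOpt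

open Vale.Agent.Lib.P302.helper14 Vale.Agent.Lib.P302.helper8 Vale.Agent.Lib.P302.helper4

section Small

open Vale.Agent.Lib.P302.helper26.Th215 Vale.Agent.Results.P302.A_Gap563561Over442368

/-- A packing of the 215 items into 73 bins: the bin (numbered from 0) of each item, in the order
of the list `sizes`. -/
def assign : List ℕ :=
  [70, 71, 72, 71, 70, 69, 68, 67, 66, 65, 64, 63, 62, 61, 60, 59, 58, 57, 56, 55,
   54, 54, 53, 53, 52, 52, 51, 55, 51, 50, 50, 49, 49, 48, 48, 47, 62, 61, 60, 59,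
   58, 57, 56, 47, 46, 45, 44, 43, 42, 42, 41, 43, 45, 44, 41, 40, 39, 38, 38, 37,
   39, 40, 37, 36, 36, 35, 35, 34, 34, 46, 63, 68, 67, 66, 65, 64, 33, 32, 31, 30,
   29, 28, 27, 26, 25, 24, 24, 25, 26, 23, 22, 21, 20, 21, 20, 19, 19, 23, 22, 18,
   18, 17, 17, 16, 16, 27, 32, 31, 30, 29, 28, 15, 14, 13, 12, 11, 10, 10, 9, 9,
   8, 8, 11, 14, 13, 12, 7, 6, 5, 5, 6, 4, 3, 2, 2, 1, 1, 3, 0, 0,
   0, 4, 3, 4, 7, 7, 6, 5, 2, 15, 15, 14, 13, 12, 11, 10, 9, 8, 1, 33,
   33, 32, 31, 30, 29, 28, 23, 22, 21, 27, 26, 25, 24, 20, 19, 18, 17, 16, 69, 69,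
   68, 67, 66, 65, 64, 40, 39, 38, 46, 45, 44, 43, 42, 41, 37, 36, 35, 63, 62, 61,
   60, 59, 58, 57, 56, 55, 54, 53, 52, 51, 50, 49, 48, 47, 34]

theorem assign_ok : packOK sizes cap assign 73 = true := by decide +kernel

/-- The 215-item instance can be packed into 73 bins. -/
theorem packable73 : Packable (ratInst sizes cap) 73 :=
  packable_of_packOK (by decide) assign_ok

/-- For every `k ≥ 73` there is a bin packing instance `J` (rational sizes in `(0,1]`) whose
optimum is exactly `k` bins and with `OPT(J) - LP(J) ≥ 563561/442368`. -/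
theorem from73 :
    ∀ k : ℕ, 73 ≤ k → ∃ J : List ℚ, IsInstance J ∧ OPT J = k ∧
      (563561 / 442368 : ℝ) ≤ (OPT J : ℝ) - LP J := by
  intro k hk
  have h := gap_of_cert_c sizes cap 72 442368 rows 13164036458569648337239753460458804039861886925068638906788872191 frac (by decide) (by decide)
    sizes_ok prep_ok no0 frac_ok
  have h2 := h.2
  rw [frac_total] at h2
  have e : (((72 : ℕ) : ℝ) + 1) - (((31729303 : ℕ) : ℝ)) / ((442368 : ℕ) : ℝ)
      = 563561 / 442368 := by norm_num
  rw [e] at h2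
  have hopt : OPT (ratInst sizes cap) ≤ 73 := Nat.sInf_le (s := {k | Packable (ratInst sizes cap) k}) packable73
  exact gap_all_opt h.1 h2 k (le_trans hopt hk)

end Small

section Large

open Vale.Agent.Lib.P302.helper9 Vale.Agent.Lib.P302.helper9.Th431
  Vale.Agent.Results.P302.A_Gap6868027Over5308416

/-- A packing of the 431 items into 145 bins: the bin (numbered from 0) of each item, in the
order of the list `sizes`. -/
def assignL : List ℕ :=
  [ 0, 1, 2, 3, 4, 5, 6, 7, 6, 8, 9, 10, 4, 5, 11, 12, 13, 14, 15, 7,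
   3, 8, 9, 10, 16, 16, 17, 17, 18, 18, 19, 20, 21, 22, 23, 24, 11, 2, 12, 13,
   14, 15, 25, 25, 26, 26, 27, 27, 28, 28, 29, 29, 30, 30, 31, 31, 32, 32, 33, 33,
   34, 34, 35, 35, 36, 37, 38, 39, 40, 41, 42, 19, 1, 20, 21, 22, 23, 24, 43, 43,
   44, 44, 45, 45, 46, 46, 47, 47, 48, 48, 49, 49, 50, 50, 51, 51, 52, 52, 53, 53,
   54, 54, 55, 55, 56, 56, 57, 57, 58, 58, 59, 59, 60, 60, 61, 61, 62, 62, 63, 63,
   64, 64, 65, 65, 66, 66, 67, 67, 68, 68, 69, 69, 70, 70, 71, 141, 141, 142, 142, 143,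
   143, 144, 36, 0, 37, 38, 39, 40, 41, 42, 72, 72, 73, 73, 74, 74, 75, 75, 76, 76,
   77, 77, 78, 78, 79, 79, 80, 80, 81, 81, 82, 82, 83, 83, 84, 84, 85, 85, 86, 86,
   87, 87, 88, 88, 89, 89, 90, 90, 91, 91, 92, 92, 93, 93, 94, 94, 95, 95, 96, 96,
   97, 97, 98, 98, 99, 99, 100, 100, 101, 101, 102, 102, 103, 103, 104, 104, 105, 105, 106, 106,
   107, 107, 108, 108, 109, 109, 110, 110, 111, 111, 112, 112, 113, 113, 114, 114, 115, 115, 116, 116,
   117, 117, 118, 118, 119, 119, 120, 120, 121, 121, 122, 122, 123, 123, 124, 124, 125, 125, 126, 126,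
   127, 127, 128, 128, 129, 129, 130, 130, 131, 131, 132, 132, 133, 133, 134, 134, 135, 135, 136, 136,
   137, 138, 137, 138, 137, 136, 135, 134, 138, 133, 132, 139, 130, 131, 129, 139, 128, 127, 126, 125,
   124, 139, 122, 123, 120, 121, 119, 118, 117, 116, 115, 140, 113, 112, 114, 111, 110, 109, 108, 107,
   140, 104, 105, 102, 103, 101, 100, 99, 98, 97, 106, 95, 94, 96, 93, 92, 91, 90, 89, 140,
   87, 85, 86, 84, 83, 82, 81, 80, 88, 78, 77, 79, 76, 75, 74, 73, 72, 144, 71, 71,
   0, 37, 38, 39, 40, 41, 42, 68, 66, 65, 67, 64, 63, 62, 61, 60, 69, 58, 56, 57,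
   55, 54, 53, 52, 51, 59, 49, 48, 50, 47, 46, 45, 44, 43, 70, 36, 1, 20, 21, 22,
   23, 24, 33, 34, 31, 30, 32, 29, 28, 27, 26, 25, 35, 19, 2, 12, 13, 14, 15, 17,
   16, 18, 11, 3, 8, 9, 10, 7, 4, 5, 6]

theorem assignL_ok : packOK sizes cap assignL 145 = true := by decide +kernel

/-- The 431-item instance can be packed into 145 bins. -/
theorem packable145 : Packable (ratInst sizes cap) 145 :=
  packable_of_packOK (by decide) assignL_ok

/-- For every `k ≥ 145` there is a bin packing instance `J` (rational sizes in `(0,1]`) whose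
optimum is exactly `k` bins and with `OPT(J) - LP(J) ≥ 6868027/5308416`. -/
theorem from145 :
    ∀ k : ℕ, 145 ≤ k → ∃ J : List ℚ, IsInstance J ∧ OPT J = k ∧
      (6868027 / 5308416 : ℝ) ≤ (OPT J : ℝ) - LP J := by
  intro k hk
  have h := gap_of_cert_c sizes cap 144 5308416 rows m0 frac (by decide) (by decide)
    sizes_ok prep_ok (head_no2 no0) frac_ok
  have h2 := h.2
  rw [frac_total] at h2
  have e : (((144 : ℕ) : ℝ) + 1) - (((762852293 : ℕ) : ℝ)) / ((5308416 : ℕ) : ℝ)
      = 6868027 / 5308416 := by norm_num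
  rw [e] at h2
  have hopt : OPT (ratInst sizes cap) ≤ 145 := Nat.sInf_le (s := {k | Packable (ratInst sizes cap) k}) packable145
  exact gap_all_opt h.1 h2 k (le_trans hopt hk)

end Large

/-- For every `k ≥ 73` there is a bin packing instance `J` (rational sizes in `(0,1]`) whose
optimum is exactly `k` bins and with `OPT(J) - LP(J) ≥ 563561/442368`; and for every `k ≥ 145`
there is one whose optimum is exactly `k` bins and with `OPT(J) - LP(J) ≥ 6868027/5308416`. -/
theorem result :
    (∀ k : ℕ, 73 ≤ k → ∃ J : List ℚ, IsInstance J ∧ OPT J = k ∧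
      (563561 / 442368 : ℝ) ≤ (OPT J : ℝ) - LP J) ∧
    (∀ k : ℕ, 145 ≤ k → ∃ J : List ℚ, IsInstance J ∧ OPT J = k ∧
      (6868027 / 5308416 : ℝ) ≤ (OPT J : ℝ) - LP J) :=
  ⟨from73, from145⟩

end Vale.Agent.Results.P302.B_GapForEveryOpt
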